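import Mathlib

/-!
Small triangles in planar sets with small doubling.
-/

namespace Vale.Agent.Results.P036.SmallDoublingTriangle

open Finset
open scoped Pointwise

/-- The grid cell of a point. -/
noncomputable def cell (N : ℕ) (x : ℝ × ℝ) : ℤ × ℤ := (⌊(N : ℝ) * x.1⌋, ⌊(N : ℝ) * x.2⌋)

lemma floor_near {a b : ℝ} (h : |a - b| < 1) : |⌊a⌋ - ⌊b⌋| ≤ 1 := by
  rw [abs_lt] at h
  have h1 := Int.floor_le a
  have h2 := Int.lt_floor_add_one a
  have h3 := Int.floor_le b
  have h4 := Int.lt_floor_add_one b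
  have h5 : ((⌊a⌋ - ⌊b⌋ : ℤ) : ℝ) < ((2 : ℤ) : ℝ) := by push_cast; linarith
  have h6 : ((-2 : ℤ) : ℝ) < ((⌊a⌋ - ⌊b⌋ : ℤ) : ℝ) := by push_cast; linarith
  have h7 := Int.cast_lt.1 h5
  have h8 := Int.cast_lt.1 h6
  rw [abs_le]
  omega

lemma close_of_cell {N : ℕ} {x y : ℝ × ℝ} (h : cell N x = cell N y) :
    |(N : ℝ) * (x.1 - y.1)| < 1 ∧ |(N : ℝ) * (x.2 - y.2)| < 1 := by
  simp only [cell, Prod.mk.injEq] at h
  rw [mul_sub, mul_sub]
  exact ⟨Int.abs_sub_lt_one_of_floor_eq_floor h.1, Int.abs_sub_lt_one_of_floor_eq_floor h.2⟩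

/-- Some short difference occurs often. -/
lemma popular (P : Finset (ℝ × ℝ)) (hP : P ⊆ P.filter fun x => 0 ≤ x.1 ∧ x.1 ≤ 1 ∧ 0 ≤ x.2 ∧ x.2 ≤ 1)
    (N : ℕ) (hN : 2 * (N + 1) ^ 2 ≤ P.card) (hn : P.Nonempty) (K : ℝ)
    (hK : ((P + P).card : ℝ) ≤ K * P.card) :
    ∃ d : ℝ × ℝ, d ≠ 0 ∧ |(N : ℝ) * d.1| ≤ 1 ∧ |(N : ℝ) * d.2| ≤ 1 ∧
      (P.card : ℝ) ≤ 18 * K ^ 3 * (P.filter fun x => x + d ∈ P).card := by
  classical
  set n := P.card
  set C := P.image (cell N)
  set E := (P ×ˢ P).filter fun q => cell N q.1 = cell N q.2 ∧ q.1 ≠ q.2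
  set D := E.image fun q => q.2 - q.1
  -- many close pairs
  have hC : C.card ≤ (N + 1) ^ 2 := by
    refine le_trans (card_le_card (t := Icc (0 : ℤ) N ×ˢ Icc (0 : ℤ) N) fun c hc => ?_) (by
      rw [card_product, Int.card_Icc, sq]
      simp)
    obtain ⟨x, hx, rfl⟩ := mem_image.1 hc
    obtain ⟨-, h1, h2, h3, h4⟩ := mem_filter.1 (hP hx)
    have hN0 : (0 : ℝ) ≤ N := Nat.cast_nonneg _
    simp only [cell, mem_product, mem_Icc, Int.floor_nonneg]
    exact ⟨⟨by positivity, Int.le_of_lt_add_one (Int.floor_lt.2 (by push_cast; nlinarith))⟩,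
      by positivity, Int.le_of_lt_add_one (Int.floor_lt.2 (by push_cast; nlinarith))⟩
  have hEcount : n ^ 2 ≤ C.card * (E.card + n) := by
    have h1 : ∑ c ∈ C, (P.filter fun x => cell N x = c).card = n :=
      (card_eq_sum_card_image (cell N) P).symm
    have h2 : ∑ c ∈ C, (P.filter fun x => cell N x = c).card ^ 2 =
        ((P ×ˢ P).filter fun q => cell N q.1 = cell N q.2).card := by
      rw [card_eq_sum_card_fiberwise (f := fun q => cell N q.1) (t := C) fun q hq => by
        simp only [mem_coe, mem_filter, mem_product] at hq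
        exact mem_image_of_mem _ hq.1.1]
      refine sum_congr rfl fun c _ => ?_
      rw [sq, ← card_product]
      congr 1
      ext q
      simp only [mem_filter, mem_product]
      constructor
      · rintro ⟨⟨a, b⟩, c1, c2⟩; exact ⟨⟨⟨a, c1⟩, b.trans c2.symm⟩, b⟩
      · rintro ⟨⟨⟨a, c1⟩, e⟩, b⟩; exact ⟨⟨a, b⟩, c1, e.symm.trans b⟩
    have h3 : ((P ×ˢ P).filter fun q => cell N q.1 = cell N q.2).card ≤ E.card + n := by
      refine le_trans (card_le_card (t := E ∪ P.image fun x => (x, x)) fun q hq => ?_)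
        ((card_union_le _ _).trans (Nat.add_le_add_left card_image_le _))
      simp only [mem_filter, mem_product] at hq
      by_cases he : q.1 = q.2
      · exact mem_union_right _ (mem_image.2 ⟨q.1, hq.1.1, Prod.ext rfl he⟩)
      · exact mem_union_left _ (mem_filter.2 ⟨mem_product.2 hq.1, hq.2, he⟩)
    have h4 := sq_sum_le_card_mul_sum_sq (s := C) (f := fun c => (P.filter fun x => cell N x = c).card)
    rw [h1, h2] at h4
    exact h4.trans (Nat.mul_le_mul_left _ h3)
  have hEne : E.Nonempty := by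
    rw [← card_pos]
    by_contra h0
    have : n ^ 2 ≤ (N + 1) ^ 2 * n := by
      refine hEcount.trans (Nat.mul_le_mul hC (by omega))
    rw [sq n] at this
    have := Nat.le_of_mul_le_mul_right this hn.card_pos
    have := hn.card_pos
    omega
  have hdclose : ∀ d ∈ D, |(N : ℝ) * d.1| < 1 ∧ |(N : ℝ) * d.2| < 1 := by
    intro d hd
    obtain ⟨q, hq, rfl⟩ := mem_image.1 hd
    exact close_of_cell (mem_filter.1 hq).2.1.symm
  -- few short differences
  have hrep : ∀ c : C, ∃ x ∈ P, cell N x = (c : ℤ × ℤ) := fun c => mem_image.1 c.2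
  choose rep hrepP hrepc using hrep
  have hD : C.card * D.card ≤ (P + (P - P)).card * 9 := by
    rw [← card_attach (s := C), ← card_product, mul_comm (P + (P - P)).card]
    refine card_le_mul_card_image_of_maps_to (f := fun cd : C × (ℝ × ℝ) => rep cd.1 + cd.2)
      (fun cd hcd => ?_) 9 fun z _ => ?_
    · rw [mem_product] at hcd
      obtain ⟨q, hq, hqd⟩ := mem_image.1 hcd.2
      have := (mem_filter.1 hq).1
      rw [mem_product] at this
      exact add_mem_add (hrepP _) (hqd ▸ sub_mem_sub this.2 this.1)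
    · refine le_trans (card_le_card_of_injOn (fun cd => (cd.1 : ℤ × ℤ))
        (t := Icc ((cell N z).1 - 1) ((cell N z).1 + 1) ×ˢ
          Icc ((cell N z).2 - 1) ((cell N z).2 + 1)) (fun cd hcd => ?_)
        fun a ha b hb h => ?_) (le_of_eq ?_)
      · simp only [mem_coe, mem_filter, mem_product] at hcd
        obtain ⟨⟨-, hd⟩, hz⟩ := hcd
        obtain ⟨h1, h2⟩ := hdclose _ hd
        have e1 := floor_near (a := (N : ℝ) * z.1) (b := (N : ℝ) * (rep cd.1).1) (by
          rw [← hz, Prod.fst_add, ← mul_sub, add_sub_cancel_left]; exact h1)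
        have e2 := floor_near (a := (N : ℝ) * z.2) (b := (N : ℝ) * (rep cd.1).2) (by
          rw [← hz, Prod.snd_add, ← mul_sub, add_sub_cancel_left]; exact h2)
        rw [abs_le] at e1 e2
        simp only [mem_coe, mem_product, mem_Icc, ← hrepc cd.1, cell]
        omega
      · simp only [mem_coe, mem_filter] at ha hb
        have h' : a.1 = b.1 := Subtype.ext h
        refine Prod.ext h' ?_
        have := ha.2.trans hb.2.symm
        rwa [h', add_right_inj] at this
      · rw [card_product, Int.card_Icc, Int.card_Icc,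
          show ∀ a : ℤ, a + 1 + 1 - (a - 1) = 3 from fun a => by ring,
          show ∀ a : ℤ, a + 1 + 1 - (a - 1) = 3 from fun a => by ring]
        rfl
  obtain ⟨d, hd, hdmax⟩ := exists_max_image D (fun d => (E.filter fun q => q.2 - q.1 = d).card)
    (hEne.image _)
  have hER : E.card ≤ D.card * (P.filter fun x => x + d ∈ P).card := by
    rw [card_eq_sum_card_image (fun q : (ℝ × ℝ) × (ℝ × ℝ) => q.2 - q.1) E]
    refine le_trans (sum_le_card_nsmul _ _ _ hdmax) (Nat.mul_le_mul_left _ ?_)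
    refine card_le_card_of_injOn Prod.fst (fun q hq => ?_) fun a ha b hb h => ?_
    · simp only [E, mem_coe, mem_filter, mem_product] at hq ⊢
      exact ⟨hq.1.1.1, by rw [← hq.2, add_sub_cancel]; exact hq.1.1.2⟩
    · simp only [mem_coe, mem_filter] at ha hb
      refine Prod.ext h ?_
      have := ha.2.trans hb.2.symm
      rwa [h, sub_left_inj] at this
  refine ⟨d, fun h0 => ?_, (hdclose d hd).1.le, (hdclose d hd).2.le, ?_⟩
  · obtain ⟨q, hq, rfl⟩ := mem_image.1 hd
    exact (mem_filter.1 hq).2.2 (sub_eq_zero.1 h0).symm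
  -- Plünnecke and the conclusion
  have hPR : ((P + (P - P)).card : ℝ) ≤ K ^ 3 * n := by
    have h := pluennecke_ruzsa_inequality_nsmul_sub_nsmul_add hn P 2 1
    rw [two_nsmul, one_nsmul, add_sub_assoc] at h
    have h' : (((P + (P - P)).card : ℚ≥0) : ℝ) ≤ _ := NNRat.cast_mono h
    push_cast at h'
    refine h'.trans (mul_le_mul_of_nonneg_right (pow_le_pow_left₀ (by positivity) ?_ 3)
      (Nat.cast_nonneg _))
    rwa [div_le_iff₀ (by exact_mod_cast hn.card_pos)]
  set R := (P.filter fun x => x + d ∈ P).card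
  have h1 : n ^ 2 ≤ 2 * (C.card * (D.card * R)) := by
    have h2 : 2 * (C.card * n) ≤ n ^ 2 := by
      rw [sq, ← mul_assoc]
      exact Nat.mul_le_mul_right _ ((Nat.mul_le_mul_left 2 hC).trans hN)
    have h3 := Nat.mul_le_mul_left C.card hER
    rw [mul_add] at hEcount
    omega
  have h2 : n ^ 2 ≤ 18 * ((P + (P - P)).card * R) := by
    calc n ^ 2 ≤ 2 * (C.card * D.card * R) := by rwa [mul_assoc]
      _ ≤ 2 * ((P + (P - P)).card * 9 * R) :=
          Nat.mul_le_mul_left _ (Nat.mul_le_mul_right _ hD)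
      _ = _ := by ring
  have h3 := (Nat.cast_le (α := ℝ)).2 h2
  push_cast at h3
  have hnR : (0 : ℝ) < n := by exact_mod_cast hn.card_pos
  refine le_of_mul_le_mul_right (a := (n : ℝ)) ?_ hnR
  have := mul_le_mul_of_nonneg_right hPR (show (0 : ℝ) ≤ 18 * R by positivity)
  nlinarith

/-- Two of many values in an interval are close. -/
lemma exists_close {α : Type*} (X : Finset α) (f : α → ℝ) (L : ℝ) (hL : 0 ≤ L)
    (hX : 2 ≤ X.card) (hf : ∀ x ∈ X, ∀ y ∈ X, |f x - f y| ≤ L) :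
    ∃ x ∈ X, ∃ y ∈ X, x ≠ y ∧ |f x - f y| ≤ L / ((X.card : ℝ) - 1) := by
  classical
  obtain ⟨m, hm, hmin⟩ := exists_min_image X f (card_pos.1 (by omega))
  have hc : (1 : ℝ) < X.card := by exact_mod_cast hX
  rcases eq_or_lt_of_le hL with rfl | hL
  · obtain ⟨y, hy, hne⟩ := exists_mem_ne (by omega : 1 < X.card) m
    exact ⟨y, hy, m, hm, hne, (hf y hy m hm).trans (by simp)⟩
  set h := L / ((X.card : ℝ) - 1) with hdef
  have hh : 0 < h := div_pos hL (by linarith)
  let idx : α → ℕ := fun x => min ⌊(f x - f m) / h⌋₊ (X.card - 2)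
  obtain ⟨x, hx, y, hy, hne, hxy⟩ := exists_ne_map_eq_of_card_lt_of_maps_to
    (s := X) (t := range (X.card - 1)) (by rw [card_range]; omega) (f := idx) (fun x _ => by
      simp only [idx, mem_coe, mem_range]; omega)
  have bounds : ∀ z ∈ X, (idx z : ℝ) * h ≤ f z - f m ∧ f z - f m ≤ ((idx z : ℝ) + 1) * h := by
    intro z hz
    have h0 : 0 ≤ (f z - f m) / h := div_nonneg (sub_nonneg.2 (hmin z hz)) hh.le
    have h1 := Nat.floor_le h0
    have h2 := Nat.lt_floor_add_one ((f z - f m) / h)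
    rw [le_div_iff₀ hh] at h1
    rw [div_lt_iff₀ hh] at h2
    constructor
    · refine le_trans (mul_le_mul_of_nonneg_right ?_ hh.le) h1
      exact_mod_cast min_le_left _ _
    · rcases le_total ⌊(f z - f m) / h⌋₊ (X.card - 2) with hle | hle
      · simp only [idx, min_eq_left hle]
        linarith
      · simp only [idx, min_eq_right hle]
        rw [Nat.cast_sub (by omega)]
        have h3 := le_of_abs_le (hf z hz m hm)
        have h4 : ((X.card : ℝ) - 1) * h = L := mul_div_cancel₀ L (by linarith)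
        push_cast
        linarith
  refine ⟨x, hx, y, hy, hne, ?_⟩
  obtain ⟨a1, a2⟩ := bounds x hx
  obtain ⟨b1, b2⟩ := bounds y hy
  rw [hxy] at a1 a2
  rw [abs_le]
  constructor <;> linarith

theorem result :
    ∀ (P : Finset (ℝ × ℝ)) (K : ℝ), 3 ≤ P.card →
      (∀ x ∈ P, 0 ≤ x.1 ∧ x.1 ≤ 1 ∧ 0 ≤ x.2 ∧ x.2 ≤ 1) →
      ((P + P).card : ℝ) ≤ K * P.card →
      ∃ p ∈ P, ∃ q ∈ P, ∃ r ∈ P, p ≠ q ∧ p ≠ r ∧ q ≠ r ∧
        |(q - p).1 * (r - p).2 - (q - p).2 * (r - p).1| / 2 ≤
          216 * K ^ 3 / ((P.card : ℝ) * Real.sqrt P.card) := by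
  classical
  intro P K hn hsq hK
  set n := P.card with hndef
  have hnR : (3 : ℝ) ≤ n := by exact_mod_cast hn
  have hPne : P.Nonempty := card_pos.1 (by omega)
  have hK1 : 1 ≤ K := by
    have h1 : (n : ℝ) ≤ (P + P).card := by exact_mod_cast card_le_card_add_right hPne
    nlinarith
  have hK3 : 1 ≤ K ^ 3 := one_le_pow₀ hK1
  have hs : 0 < Real.sqrt n := Real.sqrt_pos.2 (by linarith)
  have hssq : Real.sqrt n ^ 2 = n := Real.sq_sqrt (by linarith)
  have hbox : ∀ x ∈ P, ∀ y ∈ P, |(y - x).1| ≤ 1 ∧ |(y - x).2| ≤ 1 := fun x hx y hy => by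
    obtain ⟨a1, a2, a3, a4⟩ := hsq x hx
    obtain ⟨b1, b2, b3, b4⟩ := hsq y hy
    simp only [Prod.fst_sub, Prod.snd_sub, abs_le]
    exact ⟨⟨by linarith, by linarith⟩, by linarith, by linarith⟩
  have hdet : ∀ u v : ℝ × ℝ, ∀ a b : ℝ, |u.1| ≤ a → |u.2| ≤ a → |v.1| ≤ b → |v.2| ≤ b →
      |u.1 * v.2 - u.2 * v.1| ≤ 2 * (a * b) := by
    intro u v a b h1 h2 h3 h4
    have e1 := mul_le_mul h1 h4 (abs_nonneg _) ((abs_nonneg _).trans h1)
    have e2 := mul_le_mul h2 h3 (abs_nonneg _) ((abs_nonneg _).trans h2)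
    refine (abs_sub _ _).trans ?_
    rw [abs_mul, abs_mul]
    linarith
  rcases lt_or_ge n 32 with hsmall | hbig
  · -- few points
    obtain ⟨p, hp, q, hq, r, hr, h1, h2, h3⟩ := two_lt_card.1 (show 2 < P.card by omega)
    refine ⟨p, hp, q, hq, r, hr, h1, h2, h3, ?_⟩
    have h := hdet _ _ 1 1 (hbox p hp q hq).1 (hbox p hp q hq).2 (hbox p hp r hr).1
      (hbox p hp r hr).2
    rw [le_div_iff₀ (by positivity)]
    have h32 : (n : ℝ) ≤ 32 := by exact_mod_cast hsmall.le
    have h6 : Real.sqrt n ≤ 6 := Real.sqrt_le_iff.2 ⟨by norm_num, by linarith⟩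
    have h7 : (n : ℝ) * Real.sqrt n ≤ 32 * 6 := mul_le_mul h32 h6 hs.le (by norm_num)
    have := mul_le_mul h (le_refl ((n : ℝ) * Real.sqrt n)) (by positivity) (by norm_num)
    linarith
  set N := Nat.sqrt (n / 2) - 1 with hNdef
  have hs4 : 4 ≤ Nat.sqrt (n / 2) := Nat.le_sqrt.2 (by omega)
  have hN1 : N + 1 = Nat.sqrt (n / 2) := by omega
  have hN2 : 2 * (N + 1) ^ 2 ≤ n := by
    have := Nat.sqrt_le' (n / 2)
    rw [hN1]; omega
  have hNs : Real.sqrt n ≤ 3 * N := by
    rw [Real.sqrt_le_iff]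
    refine ⟨by positivity, ?_⟩
    have h1 := Nat.lt_succ_sqrt' (n / 2)
    rw [← hN1, Nat.succ_eq_add_one] at h1
    have h2 : n < 2 * (N + 1 + 1) ^ 2 := by omega
    have h3 : ((n : ℕ) : ℝ) ≤ 2 * ((N : ℝ) + 2) ^ 2 := by
      have := (Nat.cast_le (α := ℝ)).2 h2.le
      push_cast at this
      linarith
    have h4 : (3 : ℝ) ≤ N := by exact_mod_cast (show 3 ≤ N by omega)
    nlinarith
  obtain ⟨d, hd0, hd1, hd2, hR⟩ := popular P (fun x hx => mem_filter.2 ⟨hx, hsq x hx⟩) N hN2 hPne K hK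
  set X := P.filter fun x => x + d ∈ P with hXdef
  have hNpos : (0 : ℝ) < N := by linarith
  have hdb : |d.1| ≤ 1 / N ∧ |d.2| ≤ 1 / N := by
    rw [abs_mul, Nat.abs_cast] at hd1 hd2
    constructor <;> rw [le_div_iff₀ hNpos] <;> linarith
  have hne : ∀ x, x + d ≠ x := fun x h => hd0 (by simpa using h)
  have finish : ∀ B : ℝ, B ≤ 144 * K ^ 3 / (n * N) →
      B / 2 ≤ 216 * K ^ 3 / ((n : ℝ) * Real.sqrt n) := by
    intro B hB
    have h1 : 144 * K ^ 3 / (n * N) ≤ 432 * K ^ 3 / ((n : ℝ) * Real.sqrt n) := by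
      rw [div_le_div_iff₀ (by positivity) (by positivity)]
      have := mul_le_mul_of_nonneg_left hNs (show 0 ≤ 144 * K ^ 3 * n by positivity)
      linarith
    calc B / 2 ≤ (432 * K ^ 3 / ((n : ℝ) * Real.sqrt n)) / 2 := by linarith [hB.trans h1]
      _ = _ := by ring
  rcases lt_or_ge X.card 2 with hX | hX
  · -- huge doubling
    have hXpos : X.Nonempty := by
      by_contra h
      rw [not_nonempty_iff_eq_empty.1 h] at hR
      simp only [card_empty, Nat.cast_zero, mul_zero] at hR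
      linarith
    obtain ⟨x, hx⟩ := hXpos
    obtain ⟨hxP, hxd⟩ := mem_filter.1 hx
    obtain ⟨r, hr, hrne⟩ : ∃ r ∈ P, r ∉ ({x, x + d} : Finset (ℝ × ℝ)) :=
      exists_mem_notMem_of_card_lt_card (lt_of_le_of_lt card_le_two (by omega))
    simp only [mem_insert, mem_singleton, not_or] at hrne
    refine ⟨x, hxP, x + d, hxd, r, hr, (hne x).symm, Ne.symm hrne.1, Ne.symm hrne.2, finish _ ?_⟩
    rw [add_sub_cancel_left]
    refine (hdet d (r - x) _ 1 hdb.1 hdb.2 (hbox x hxP r hr).1 (hbox x hxP r hr).2).trans ?_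
    have hX1 : (X.card : ℝ) ≤ 1 := by exact_mod_cast Nat.lt_succ_iff.1 hX
    have := mul_le_mul_of_nonneg_left hX1 (show 0 ≤ 18 * K ^ 3 by positivity)
    rw [mul_one, mul_one_div, div_le_div_iff₀ hNpos (by positivity)]
    have := mul_le_mul_of_nonneg_right (show (n : ℝ) ≤ 18 * K ^ 3 by linarith) hNpos.le
    nlinarith
  obtain ⟨x, hx, y, hy, hxy, hclose⟩ := exists_close X (fun z => d.1 * z.2 - d.2 * z.1)
    (2 * (1 / N * 1)) (by positivity) hX fun a ha b hb => by
      rw [show d.1 * a.2 - d.2 * a.1 - (d.1 * b.2 - d.2 * b.1) =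
        d.1 * (a - b).2 - d.2 * (a - b).1 by simp only [Prod.fst_sub, Prod.snd_sub]; ring]
      exact hdet d (a - b) _ 1 hdb.1 hdb.2 (hbox b (mem_filter.1 hb).1 a (mem_filter.1 ha).1).1
        (hbox b (mem_filter.1 hb).1 a (mem_filter.1 ha).1).2
  obtain ⟨hxP, hxd⟩ := mem_filter.1 hx
  obtain ⟨hyP, hyd⟩ := mem_filter.1 hy
  have hX' : (X.card : ℝ) / 2 ≤ (X.card : ℝ) - 1 := by
    have : (2 : ℝ) ≤ X.card := by exact_mod_cast hX
    linarith
  have hbound : |d.1 * (x.2 - y.2) - d.2 * (x.1 - y.1)| ≤ 144 * K ^ 3 / (n * N) := by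
    rw [show d.1 * (x.2 - y.2) - d.2 * (x.1 - y.1) =
      d.1 * x.2 - d.2 * x.1 - (d.1 * y.2 - d.2 * y.1) by ring]
    refine hclose.trans ?_
    have hXp : (0 : ℝ) < X.card := by exact_mod_cast (show 0 < X.card by omega)
    calc 2 * (1 / (N : ℝ) * 1) / ((X.card : ℝ) - 1) ≤ 2 * (1 / (N : ℝ) * 1) / ((X.card : ℝ) / 2) :=
          div_le_div_of_nonneg_left (by positivity) (by positivity) hX'
      _ = 4 / (N * X.card) := by field_simp; ring
      _ ≤ _ := by
          rw [div_le_div_iff₀ (by positivity) (by positivity)]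
          have := mul_le_mul_of_nonneg_right hR (show (0 : ℝ) ≤ 4 * N by positivity)
          have : 0 ≤ 72 * K ^ 3 * (N * X.card) := by positivity
          linarith
  by_cases hyx : y = x + d
  · -- three collinear points
    refine ⟨x, hxP, y, hyP, y + d, hyd, hxy, ?_, (hne y).symm, finish _ ?_⟩
    · intro h
      rw [hyx] at h
      apply hd0
      have h' : x + d + d - x = 0 := sub_eq_zero.2 h.symm
      ext
      · have := congrArg Prod.fst h'
        simp only [Prod.fst_sub, Prod.fst_add, Prod.fst_zero] at this ⊢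
        linarith
      · have := congrArg Prod.snd h'
        simp only [Prod.snd_sub, Prod.snd_add, Prod.snd_zero] at this ⊢
        linarith
    · subst hyx
      simp only [Prod.fst_sub, Prod.snd_sub, Prod.fst_add, Prod.snd_add]
      ring_nf
      rw [abs_zero]
      positivity
  · refine ⟨x, hxP, x + d, hxd, y, hyP, (hne x).symm, hxy, Ne.symm hyx, finish _ ?_⟩
    rw [add_sub_cancel_left, Prod.fst_sub, Prod.snd_sub]
    refine le_of_eq_of_le ?_ hbound
    rw [← abs_neg]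
    congr 1
    ring

end Vale.Agent.Results.P036.SmallDoublingTriangle
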